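import Mathlib

/-! Biholomorphic maps, holomorphic actions, bounded symmetric domains. -/

open Set

namespace Vale.Agent.P274

/-- `f` maps `U` biholomorphically onto `V`, with inverse `g`
(for open subsets of finite-dimensional complex vector spaces). -/
structure IsBiholo {E F : Type*} [NormedAddCommGroup E] [NormedSpace ℂ E]
    [NormedAddCommGroup F] [NormedSpace ℂ F] (U : Set E) (V : Set F) (f : E → F) (g : F → E) :
    Prop where
  diffOn : DifferentiableOn ℂ f U
  diffOn_inv : DifferentiableOn ℂ g V
  mapsTo : MapsTo f U V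
  mapsTo_inv : MapsTo g V U
  left_inv : ∀ x ∈ U, g (f x) = x
  right_inv : ∀ y ∈ V, f (g y) = y

/-- `U` and `V` are biholomorphic. -/
def Biholomorphic {E F : Type*} [NormedAddCommGroup E] [NormedSpace ℂ E]
    [NormedAddCommGroup F] [NormedSpace ℂ F] (U : Set E) (V : Set F) : Prop :=
  ∃ f g, IsBiholo U V f g

/-- The group `Γ` acts on the set `U` by maps which are holomorphic on `U`. -/
def ActsHolomorphically {E : Type*} [NormedAddCommGroup E] [NormedSpace ℂ E]
    (Γ : Type*) [Group Γ] (U : Set E) [MulAction Γ U] : Prop :=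
  ∀ γ : Γ, ∃ f : E → E, DifferentiableOn ℂ f U ∧ ∀ x : U, f x = ((γ • x : U) : E)

/-- A bounded symmetric domain in `ℂ^k`: a connected bounded open set in which every point is
an isolated fixed point of a holomorphic involution. -/
def IsBoundedSymmetricDomain {k : ℕ} (D : Set (EuclideanSpace ℂ (Fin k))) : Prop :=
  IsOpen D ∧ IsConnected D ∧ Bornology.IsBounded D ∧
    ∀ x ∈ D, ∃ s, IsBiholo D D s s ∧ s x = x ∧ ∃ r > 0, ∀ y ∈ D, dist y x < r → s y = y → y = x

end Vale.Agent.P274
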