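import Mathlib

/-! Semialgebraic subsets of `ℂ^n`. -/

open Set

namespace Vale.Agent.P274

/-- The value at `z` of a real polynomial in the real and imaginary parts of the coordinates. -/
noncomputable def realEval {n : ℕ} (p : MvPolynomial (Fin n ⊕ Fin n) ℝ)
    (z : EuclideanSpace ℂ (Fin n)) : ℝ :=
  MvPolynomial.eval (Sum.elim (fun i => (z i).re) (fun i => (z i).im)) p

/-- Semialgebraic subsets of `ℂ^n`: finite Boolean combinations of sets defined by real polynomial
inequalities in the real and imaginary parts of the coordinates. -/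
inductive IsSemialgebraic {n : ℕ} : Set (EuclideanSpace ℂ (Fin n)) → Prop
  | pos (p : MvPolynomial (Fin n ⊕ Fin n) ℝ) : IsSemialgebraic {z | 0 < realEval p z}
  | compl {S : Set (EuclideanSpace ℂ (Fin n))} : IsSemialgebraic S → IsSemialgebraic Sᶜ
  | inter {S T : Set (EuclideanSpace ℂ (Fin n))} :
      IsSemialgebraic S → IsSemialgebraic T → IsSemialgebraic (S ∩ T)

end Vale.Agent.P274
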