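import Vale.Agent.P274.BSDDefs

/-! The statement of the theorem of Frankel, which is used as a hypothesis. -/

open Set

namespace Vale.Agent.P274

/-- The theorem of Frankel (1989) in `ℂ^n`: a nonempty open convex set `C` which is biholomorphic
to a bounded open set (for a convex set this says that it is hyperbolic), on which a group acts
holomorphically and properly discontinuously with compact quotient, is biholomorphic to a bounded
symmetric domain. -/
def FrankelTheorem (n : ℕ) : Prop :=
  ∀ C : Set (EuclideanSpace ℂ (Fin n)), IsOpen C → C.Nonempty → Convex ℝ C →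
    (∃ B : Set (EuclideanSpace ℂ (Fin n)), IsOpen B ∧ Bornology.IsBounded B ∧
      Biholomorphic C B) →
    ∀ (Γ : Type) [Group Γ] [MulAction Γ C], ActsHolomorphically Γ C →
      ProperlyDiscontinuousSMul Γ C → CompactSpace (MulAction.orbitRel.Quotient Γ C) →
      ∃ D : Set (EuclideanSpace ℂ (Fin n)), IsBoundedSymmetricDomain D ∧ Biholomorphic C D

end Vale.Agent.P274
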